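import Mathlib

/-!
# Seymour's second neighbourhood conjecture (unweighted, self-contained)

Written by helper122 after the notes 20944 (helper294: strict (G)), 22494 (helper564) / 22551
(helper310: the intersections over closed in-neighbourhoods), 22687 (helper357), 22721 (helper391),
22725 (helper103), 22727 (helper787) of the team database.
-/

namespace Vale.Agent.P038.H122

open Finset Classical

variable {V : Type*} [Fintype V]

/-- closed adjacency -/
def adj (A : Finset (V × V)) (a z : V) : Prop := a = z ∨ (a, z) ∈ A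

/-- closed out-neighbourhood of a set -/
noncomputable def cl (A : Finset (V × V)) (S : Finset V) : Finset V :=
  univ.filter (fun z => ∃ a ∈ S, adj A a z)

lemma mem_cl {A : Finset (V × V)} {S : Finset V} {z : V} :
    z ∈ cl A S ↔ ∃ a ∈ S, adj A a z := by simp [cl]

lemma sub_cl (A : Finset (V × V)) (S : Finset V) : S ⊆ cl A S := fun z hz =>
  mem_cl.2 ⟨z, hz, Or.inl rfl⟩

lemma cl_mono {A : Finset (V × V)} {S T : Finset V} (h : S ⊆ T) : cl A S ⊆ cl A T := by
  intro z hz
  obtain ⟨a, ha, haz⟩ := mem_cl.1 hz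
  exact mem_cl.2 ⟨a, h ha, haz⟩

lemma cl_mono_arcs {A A' : Finset (V × V)} (h : A' ⊆ A) (S : Finset V) : cl A' S ⊆ cl A S := by
  intro z hz
  obtain ⟨a, ha, haz⟩ := mem_cl.1 hz
  exact mem_cl.2 ⟨a, ha, haz.imp id (fun h' => h h')⟩

lemma cl_union (A : Finset (V × V)) (S T : Finset V) : cl A (S ∪ T) = cl A S ∪ cl A T := by
  ext z
  simp only [mem_cl, mem_union]
  constructor
  · rintro ⟨a, h | h, h'⟩
    · exact Or.inl ⟨a, h, h'⟩
    · exact Or.inr ⟨a, h, h'⟩
  · rintro (⟨a, h, h'⟩ | ⟨a, h, h'⟩)
    · exact ⟨a, Or.inl h, h'⟩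
    · exact ⟨a, Or.inr h, h'⟩

/-- boundary size -/
noncomputable def c (A : Finset (V × V)) (S : Finset V) : ℤ := ((cl A S).card : ℤ) - S.card

lemma c_sub (A : Finset (V × V)) (Y Y' : Finset V) :
    c A (Y ∪ Y') + c A (Y ∩ Y') ≤ c A Y + c A Y' := by
  have h1 : ((Y ∪ Y').card : ℤ) + (Y ∩ Y').card = Y.card + Y'.card := by
    exact_mod_cast card_union_add_card_inter Y Y'
  have h2 : ((cl A Y ∪ cl A Y').card : ℤ) + (cl A Y ∩ cl A Y').card
      = (cl A Y).card + (cl A Y').card := by
    exact_mod_cast card_union_add_card_inter (cl A Y) (cl A Y')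
  have h3 : ((cl A (Y ∩ Y')).card : ℤ) ≤ (cl A Y ∩ cl A Y').card := by
    exact_mod_cast card_le_card (subset_inter (cl_mono inter_subset_left)
      (cl_mono inter_subset_right))
  unfold c
  rw [cl_union]
  linarith

/-- `|N1 v| - |N2 v|` -/
noncomputable def F (A : Finset (V × V)) (v : V) : ℤ :=
  2 * ((cl A {v}).card : ℤ) - (cl A (cl A {v})).card - 1

/-- **strict (G)** (helper294): in an arc-minimal counterexample the layers of every set
decrease strictly. -/
lemma strictG (A : Finset (V × V)) (hCE : ∀ v, 0 < F A v)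
    (hmin : ∀ A', A' ⊂ A → ¬ ∀ v, 0 < F A' v) (X : Finset V) (hX : cl A X ≠ X) :
    c A (cl A X) < c A X := by
  by_contra hcon
  push Not at hcon
  unfold c at hcon
  set L : Finset V := cl A X \ X with hL
  have hLne : L.Nonempty := by
    rw [hL, sdiff_nonempty]
    intro h
    exact hX (subset_antisymm h (sub_cl A X))
  let d : Finset V → ℤ := fun T => ((cl A T \ X).card : ℤ) - 2 * T.card
  have hempty : (∅ : Finset V) ∈ L.ssubsets := by
    rw [mem_ssubsets, Finset.ssubset_iff_subset_ne]
    exact ⟨empty_subset _, fun h => by simp [← h] at hLne⟩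
  obtain ⟨T, hT, hTmin⟩ := exists_min_image L.ssubsets d ⟨∅, hempty⟩
  have hTL : T ⊂ L := mem_ssubsets.1 hT
  have hd0 : d T ≤ 0 := by
    have := hTmin ∅ hempty
    have h0 : cl A (∅ : Finset V) = ∅ := by ext z; simp [mem_cl]
    simpa [d, h0] using this
  have hdL : 0 ≤ d L := by
    have h1 : cl A (cl A X) = X ∪ (cl A L \ X) := by
      have h2 : cl A X = X ∪ L := by
        rw [hL, union_sdiff_of_subset (sub_cl A X)]
      ext z
      constructor
      · intro hz
        by_cases hzX : z ∈ X
        · exact mem_union_left _ hzX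
        · refine mem_union_right _ (mem_sdiff.2 ⟨?_, hzX⟩)
          rw [h2, cl_union, mem_union] at hz
          rcases hz with hz | hz
          · exact sub_cl A L (mem_sdiff.2 ⟨hz, hzX⟩)
          · exact hz
      · intro hz
        rcases mem_union.1 hz with hz | hz
        · exact sub_cl A _ (sub_cl A _ hz)
        · exact cl_mono sdiff_subset (mem_sdiff.1 hz).1
    have h3 : (cl A (cl A X)).card = X.card + (cl A L \ X).card := by
      rw [h1, card_union_of_disjoint disjoint_sdiff]
    have h4 : (cl A X).card = X.card + L.card := by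
      have := card_sdiff_add_card_eq_card (sub_cl A X)
      rw [← hL] at this
      omega
    show (0 : ℤ) ≤ ((cl A L \ X).card : ℤ) - 2 * L.card
    have h3' : ((cl A (cl A X)).card : ℤ) = X.card + (cl A L \ X).card := by exact_mod_cast h3
    have h4' : ((cl A X).card : ℤ) = X.card + L.card := by exact_mod_cast h4
    linarith
  have hkey : ∀ D : Finset V, D ⊆ L → d T ≤ d (T ∪ D) := by
    intro D hD
    by_cases h : T ∪ D = L
    · rw [h]; linarith
    · exact hTmin _ (mem_ssubsets.2 (Finset.ssubset_iff_subset_ne.2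
        ⟨union_subset hTL.1 hD, h⟩))
  -- the deletion
  let A' : Finset (V × V) := A.filter (fun p => ¬ (p.1 ∈ X ∧ p.2 ∉ X ∧ p.2 ∉ T))
  have hA'A : A' ⊆ A := filter_subset _ _
  have hA' : A' ⊂ A := by
    obtain ⟨v, hvL, hvT⟩ := exists_of_ssubset hTL
    obtain ⟨hvc, hvX⟩ := mem_sdiff.1 (hL ▸ hvL)
    obtain ⟨y, hyX, hyv⟩ := mem_cl.1 hvc
    have hyv' : (y, v) ∈ A := by
      rcases hyv with h | h
      · exact absurd (h ▸ hyX) hvX
      · exact h
    refine Finset.ssubset_iff_subset_ne.2 ⟨hA'A, fun h => ?_⟩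
    have : (y, v) ∈ A' := h ▸ hyv'
    exact (mem_filter.1 this).2 ⟨hyX, hvX, hvT⟩
  refine hmin A' hA' fun y => ?_
  have hy := hCE y
  by_cases hyX : y ∈ X
  · set Dy : Finset V := cl A {y} \ (X ∪ T) with hDy
    have hDL : Dy ⊆ L := by
      intro v hv
      obtain ⟨h1, h2⟩ := mem_sdiff.1 hv
      rw [mem_union, not_or] at h2
      exact mem_sdiff.2 ⟨cl_mono (singleton_subset_iff.2 hyX) h1, h2.1⟩
    have hDT : Disjoint T Dy := by
      rw [disjoint_left]
      intro v hvT hvD
      exact (mem_sdiff.1 hvD).2 (mem_union_right _ hvT)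
    have h1 : (cl A' {y}).card + Dy.card = (cl A {y}).card := by
      have h2 : cl A' {y} = cl A {y} \ Dy := by
        ext v
        simp only [mem_cl, mem_sdiff, mem_singleton, exists_eq_left, hDy, mem_union, adj,
          A', mem_filter]
        constructor
        · rintro (h | h)
          · subst h
            exact ⟨Or.inl rfl, fun h3 => h3.2 (Or.inl hyX)⟩
          · refine ⟨Or.inr h.1, fun h3 => ?_⟩
            have h4 := h3.2
            push Not at h4
            exact h.2 ⟨hyX, h4.1, h4.2⟩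
        · rintro ⟨h | h, h3⟩
          · exact Or.inl h
          · refine Or.inr ⟨h, fun h4 => h3 ⟨Or.inr h, ?_⟩⟩
            push Not
            exact ⟨h4.2.1, h4.2.2⟩
      rw [h2]
      exact card_sdiff_add_card_eq_card sdiff_subset
    have h2 : cl A' (cl A' {y}) ⊆ X ∪ cl A T := by
      have h5 : ∀ u v, u ∈ X → adj A' u v → v ∈ X ∪ T := by
        intro u v hu huv
        rcases huv with h | h
        · exact mem_union_left _ (h ▸ hu)
        · have := (mem_filter.1 h).2
          by_contra h6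
          rw [mem_union, not_or] at h6
          exact this ⟨hu, h6.1, h6.2⟩
      intro v hv
      obtain ⟨u, hu, huv⟩ := mem_cl.1 hv
      obtain ⟨y', hy', hyu⟩ := mem_cl.1 hu
      rw [mem_singleton] at hy'
      subst hy'
      rcases mem_union.1 (h5 _ _ hyX hyu) with h6 | h6
      · rcases mem_union.1 (h5 _ _ h6 huv) with h7 | h7
        · exact mem_union_left _ h7
        · exact mem_union_right _ (sub_cl A T h7)
      · refine mem_union_right _ (mem_cl.2 ⟨u, h6, huv.imp id (fun h => hA'A h)⟩)
    have h3 : (cl A' (cl A' {y})).card + (cl A Dy \ (X ∪ cl A T)).card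
        ≤ (cl A (cl A {y})).card := by
      rw [← card_union_of_disjoint]
      · refine card_le_card (union_subset ?_ ?_)
        · exact (cl_mono_arcs hA'A _).trans (cl_mono (cl_mono_arcs hA'A _))
        · exact sdiff_subset.trans (cl_mono sdiff_subset)
      · rw [disjoint_left]
        intro v hv1 hv2
        exact (mem_sdiff.1 hv2).2 (h2 hv1)
    have h4 : (cl A Dy \ (X ∪ cl A T)).card + (cl A T \ X).card = (cl A (T ∪ Dy) \ X).card := by
      rw [← card_union_of_disjoint]
      · congr 1
        ext v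
        rw [cl_union]
        simp only [mem_union, mem_sdiff]
        tauto
      · rw [disjoint_left]
        intro v hv1 hv2
        exact (mem_sdiff.1 hv1).2 (mem_union_right _ (mem_sdiff.1 hv2).1)
    have h5 : (T ∪ Dy).card = T.card + Dy.card := card_union_of_disjoint hDT
    have h6 : ((cl A T \ X).card : ℤ) - 2 * T.card ≤ ((cl A (T ∪ Dy) \ X).card : ℤ)
        - 2 * (T ∪ Dy).card := hkey Dy hDL
    have h1' : ((cl A' {y}).card : ℤ) + Dy.card = (cl A {y}).card := by exact_mod_cast h1
    have h3' : ((cl A' (cl A' {y})).card : ℤ) + (cl A Dy \ (X ∪ cl A T)).card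
        ≤ (cl A (cl A {y})).card := by exact_mod_cast h3
    have h4' : ((cl A Dy \ (X ∪ cl A T)).card : ℤ) + (cl A T \ X).card
        = (cl A (T ∪ Dy) \ X).card := by exact_mod_cast h4
    have h5' : ((T ∪ Dy).card : ℤ) = T.card + Dy.card := by exact_mod_cast h5
    unfold F at hy ⊢
    linarith
  · have h1 : cl A' {y} = cl A {y} := by
      ext v
      simp only [mem_cl, mem_singleton, exists_eq_left, adj, A', mem_filter, hyX, false_and,
        not_false_eq_true, and_true]
    have h2 : (cl A' (cl A' {y})).card ≤ (cl A (cl A {y})).card := by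
      rw [h1]
      exact card_le_card (cl_mono_arcs hA'A _)
    have h2' : ((cl A' (cl A' {y})).card : ℤ) ≤ (cl A (cl A {y})).card := by exact_mod_cast h2
    unfold F at hy ⊢
    rw [h1] at h2' ⊢
    linarith

/-! ## The parametric minimum -/

lemma exists_k (h : Finset V → ℤ) (P Q : Finset V) (hPQ : P ⊆ Q) :
    ∃ k : Finset V → ℤ, (∀ W Y, P ⊆ Y → W ∩ Q ⊆ Y → Y ⊆ Q → k W ≤ h Y) ∧
      ∀ W, ∃ Y, P ⊆ Y ∧ W ∩ Q ⊆ Y ∧ Y ⊆ Q ∧ h Y = k W := by
  have key : ∀ W : Finset V, ∃ Y, (P ⊆ Y ∧ W ∩ Q ⊆ Y ∧ Y ⊆ Q) ∧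
      ∀ Y', (P ⊆ Y' ∧ W ∩ Q ⊆ Y' ∧ Y' ⊆ Q) → h Y ≤ h Y' := by
    intro W
    obtain ⟨Y, hY, hYm⟩ := exists_min_image
      (univ.filter (fun Y : Finset V => P ⊆ Y ∧ W ∩ Q ⊆ Y ∧ Y ⊆ Q)) h
      ⟨Q, by simp [hPQ, inter_subset_right]⟩
    exact ⟨Y, (mem_filter.1 hY).2, fun Y' hY' => hYm Y' (mem_filter.2 ⟨mem_univ _, hY'⟩)⟩
  choose Y hY hYm using key
  exact ⟨fun W => h (Y W), fun W Y' h1 h2 h3 => hYm W Y' ⟨h1, h2, h3⟩,
    fun W => ⟨Y W, (hY W).1, (hY W).2.1, (hY W).2.2, rfl⟩⟩

/-- layer cake -/
lemma layer (f g : V → ℤ) (hf : ∀ a, 0 ≤ f a) (hg : ∀ a, 0 ≤ g a)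
    (h : ∀ t : ℤ, 0 < t → (univ.filter (fun a => t ≤ f a)).card ≤
      (univ.filter (fun a => t ≤ g a)).card) : ∑ a, f a ≤ ∑ a, g a := by
  have rep : ∀ (N : ℕ) (f : V → ℤ), (∀ a, 0 ≤ f a) → (∀ a, f a ≤ N) →
      ∑ a, f a = ∑ t ∈ range N, ((univ.filter (fun a => (t : ℤ) + 1 ≤ f a)).card : ℤ) := by
    intro N f hf hN
    have h1 : ∀ a, f a = ∑ t ∈ range N, if (t : ℤ) + 1 ≤ f a then (1 : ℤ) else 0 := by
      intro a
      rw [← sum_filter, sum_const, nsmul_eq_mul, mul_one]
      have h2 : (range N).filter (fun t : ℕ => (t : ℤ) + 1 ≤ f a) = range (f a).toNat := by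
        ext t
        simp only [mem_filter, mem_range]
        have := hf a
        have := hN a
        omega
      rw [h2, card_range]
      have := hf a
      omega
    calc ∑ a, f a = ∑ a, ∑ t ∈ range N, (if (t : ℤ) + 1 ≤ f a then (1 : ℤ) else 0) :=
          sum_congr rfl (fun a _ => h1 a)
      _ = ∑ t ∈ range N, ∑ a, (if (t : ℤ) + 1 ≤ f a then (1 : ℤ) else 0) := sum_comm
      _ = _ := by
          refine sum_congr rfl (fun t _ => ?_)
          rw [← sum_filter, sum_const, nsmul_eq_mul, mul_one]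
  obtain ⟨N, hN⟩ : ∃ N : ℕ, ∀ a, f a ≤ N ∧ g a ≤ N := by
    refine ⟨(∑ a, (f a + g a)).toNat, fun a => ?_⟩
    have h1 : f a + g a ≤ ∑ a, (f a + g a) :=
      single_le_sum (f := fun a => f a + g a) (fun i _ => add_nonneg (hf i) (hg i)) (mem_univ a)
    have := hf a
    have := hg a
    constructor <;> omega
  rw [rep N f hf (fun a => (hN a).1), rep N g hg (fun a => (hN a).2)]
  refine sum_le_sum (fun t _ => ?_)
  exact_mod_cast h ((t : ℤ) + 1) (by positivity)

/-- **The gap inequality** (357 / 391 / 103 / 787). -/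
theorem gap (R : V → V → Prop) (h : Finset V → ℤ)
    (hsub : ∀ Y Y', h (Y ∪ Y') + h (Y ∩ Y') ≤ h Y + h Y')
    (B U m M : V → Finset V) (hBU : ∀ a, B a ⊆ U a)
    (hm : ∀ z x, x ∈ m z ↔ ∀ a, R a z → x ∈ B a)
    (hM : ∀ z x, x ∈ M z ↔ ∀ a, R a z → x ∈ U a)
    (hrow : ∀ a Y, B a ⊆ Y → Y ⊆ U a → h (B a) ≤ h Y)
    (hcol : ∀ b (S : Finset V), (∀ a ∈ S, b ∈ U a ∧ b ∉ B a) →
      S.card ≤ (univ.filter (fun z => b ∈ M z ∧ ∃ a ∈ S, R a z)).card) :
    ∑ a, (h (U a) - h (B a)) ≤ ∑ z, (h (M z) - h (m z)) := by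
  have hmM : ∀ z, m z ⊆ M z := fun z x hx =>
    (hM z x).2 fun a ha => hBU a ((hm z x).1 hx a ha)
  have hmB : ∀ a z, R a z → m z ⊆ B a := fun a z haz x hx => (hm z x).1 hx a haz
  have hMU : ∀ a z, R a z → M z ⊆ U a := fun a z haz x hx => (hM z x).1 hx a haz
  -- intersections
  have hint : ∀ z Y, m z ⊆ Y → Y ⊆ M z → h (m z) ≤ h Y := by
    intro z Y h1 h2
    have step : ∀ T : Finset V, (∀ a ∈ T, R a z) →
        h (Y.filter (fun x => ∀ a ∈ T, x ∈ B a)) ≤ h Y := by
      intro T
      induction T using Finset.induction_on with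
      | empty => intro _; simp
      | insert a T haT ih =>
        intro hT
        have ih' := ih (fun a ha => hT a (mem_insert_of_mem ha))
        have haz := hT a (mem_insert_self _ _)
        set Y1 := Y.filter (fun x => ∀ a ∈ T, x ∈ B a) with hY1
        have h3 : Y.filter (fun x => ∀ a' ∈ insert a T, x ∈ B a') = Y1 ∩ B a := by
          ext x
          simp only [hY1, mem_filter, mem_inter, forall_mem_insert]
          tauto
        rw [h3]
        have h4 := hsub Y1 (B a)
        have h5 : h (B a) ≤ h (Y1 ∪ B a) := hrow a _ subset_union_right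
          (union_subset (((filter_subset _ _).trans h2).trans (hMU a z haz)) (hBU a))
        linarith
    have h6 := step (univ.filter (fun a => R a z)) (fun a ha => (mem_filter.1 ha).2)
    have h7 : Y.filter (fun x => ∀ a ∈ univ.filter (fun a => R a z), x ∈ B a) = m z := by
      ext x
      simp only [mem_filter, mem_univ, true_and]
      constructor
      · rintro ⟨_, h8⟩
        exact (hm z x).2 h8
      · intro h8
        exact ⟨h1 h8, (hm z x).1 h8⟩
    rwa [h7] at h6
  choose k hk1 hk2 using fun a => exists_k h (B a) (U a) (hBU a)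
  choose κ hκ1 hκ2 using fun z => exists_k h (m z) (M z) (hmM z)
  have kmono : ∀ a W W', W ⊆ W' → k a W ≤ k a W' := by
    intro a W W' hW
    obtain ⟨Y, h1, h2, h3, h4⟩ := hk2 a W'
    rw [← h4]
    exact hk1 a W Y h1 ((inter_subset_inter_right hW).trans h2) h3
  have κmono : ∀ z W W', W ⊆ W' → κ z W ≤ κ z W' := by
    intro a W W' hW
    obtain ⟨Y, h1, h2, h3, h4⟩ := hκ2 a W'
    rw [← h4]
    exact hκ1 a W Y h1 ((inter_subset_inter_right hW).trans h2) h3
  have k0 : ∀ a, k a ∅ = h (B a) := by
    intro a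
    refine le_antisymm (hk1 a ∅ (B a) subset_rfl (by simp) (hBU a)) ?_
    obtain ⟨Y, h1, _, h3, h4⟩ := hk2 a ∅
    rw [← h4]
    exact hrow a Y h1 h3
  have κ0 : ∀ z, κ z ∅ = h (m z) := by
    intro z
    refine le_antisymm (hκ1 z ∅ (m z) subset_rfl (by simp) (hmM z)) ?_
    obtain ⟨Y, h1, _, h3, h4⟩ := hκ2 z ∅
    rw [← h4]
    exact hint z Y h1 h3
  have k1 : ∀ a, k a univ = h (U a) := by
    intro a
    obtain ⟨Y, _, h2, h3, h4⟩ := hk2 a univ
    rw [univ_inter] at h2
    rw [← h4, subset_antisymm h3 h2]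
  have κ1 : ∀ z, κ z univ = h (M z) := by
    intro a
    obtain ⟨Y, _, h2, h3, h4⟩ := hκ2 a univ
    rw [univ_inter] at h2
    rw [← h4, subset_antisymm h3 h2]
  have main : ∀ W : Finset V, ∑ a, (k a W - k a ∅) ≤ ∑ z, (κ z W - κ z ∅) := by
    intro W
    induction W using Finset.induction_on with
    | empty => simp
    | insert b W hb ih =>
      have step : ∑ a, (k a (insert b W) - k a W) ≤ ∑ z, (κ z (insert b W) - κ z W) := by
        refine layer _ _ (fun a => sub_nonneg.2 (kmono a _ _ (subset_insert _ _)))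
          (fun z => sub_nonneg.2 (κmono z _ _ (subset_insert _ _))) (fun t ht => ?_)
        refine (hcol b _ (fun a ha => ?_)).trans (card_le_card fun z hz => ?_)
        · -- increments vanish off the gap
          have hpos : 0 < k a (insert b W) - k a W := lt_of_lt_of_le ht (mem_filter.1 ha).2
          by_contra hcon
          have h1 : k a (insert b W) ≤ k a W := by
            obtain ⟨Y, h1, h2, h3, h4⟩ := hk2 a W
            rw [← h4]
            refine hk1 a _ Y h1 (fun x hx => ?_) h3
            obtain ⟨hx1, hx2⟩ := mem_inter.1 hx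
            rcases mem_insert.1 hx1 with hx3 | hx3
            · subst hx3
              by_cases hxB : x ∈ B a
              · exact h1 hxB
              · exact absurd ⟨hx2, hxB⟩ hcon
            · exact h2 (mem_inter.2 ⟨hx3, hx2⟩)
          linarith
        · obtain ⟨_, hbM, a, ha, haz⟩ := mem_filter.1 hz |>.imp id id
          have hta := (mem_filter.1 ha).2
          refine mem_filter.2 ⟨mem_univ _, ?_⟩
          obtain ⟨Y, h1, h2, h3, h4⟩ := hκ2 z (insert b W)
          obtain ⟨Y', h1', h2', h3', h4'⟩ := hk2 a W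
          have h5 : k a (insert b W) ≤ h (Y ∪ Y') := by
            refine hk1 a _ _ (h1'.trans subset_union_right) (fun x hx => ?_)
              (union_subset (h3.trans (hMU a z haz)) h3')
            obtain ⟨hx1, hx2⟩ := mem_inter.1 hx
            rcases mem_insert.1 hx1 with hx3 | hx3
            · subst hx3
              exact mem_union_left _ (h2 (mem_inter.2 ⟨mem_insert_self _ _, hbM⟩))
            · exact mem_union_right _ (h2' (mem_inter.2 ⟨hx3, hx2⟩))
          have h6 : κ z W ≤ h (Y ∩ Y') := by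
            refine hκ1 z _ _ (subset_inter h1 ((hmB a z haz).trans h1')) (fun x hx => ?_)
              (inter_subset_left.trans h3)
            obtain ⟨hx1, hx2⟩ := mem_inter.1 hx
            exact mem_inter.2 ⟨h2 (mem_inter.2 ⟨mem_insert_of_mem hx1, hx2⟩),
              h2' (mem_inter.2 ⟨hx1, hMU a z haz hx2⟩)⟩
          have h7 := hsub Y Y'
          linarith
      have e1 : ∑ a, (k a (insert b W) - k a ∅) = ∑ a, (k a (insert b W) - k a W)
          + ∑ a, (k a W - k a ∅) := by
        rw [← sum_add_distrib]; exact sum_congr rfl (fun a _ => by ring)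
      have e2 : ∑ a, (κ a (insert b W) - κ a ∅) = ∑ a, (κ a (insert b W) - κ a W)
          + ∑ a, (κ a W - κ a ∅) := by
        rw [← sum_add_distrib]; exact sum_congr rfl (fun a _ => by ring)
      rw [e1, e2]
      exact add_le_add step ih
  have := main univ
  simpa only [k0, k1, κ0, κ1] using this

/-! ## Outer pairs -/

/-- outer pairs -/
def Feas (A : Finset (V × V)) (p : (V → Finset V) × (V → Finset V)) : Prop :=
  (∀ a z, adj A a z → z ∈ p.1 a) ∧ (∀ a z, adj A a z → z ∈ p.2 a) ∧
    ∀ a b, b ∈ p.1 a → a ∈ p.2 b → a = b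

/-- cost of a pair -/
noncomputable def cost (A : Finset (V × V)) (p : (V → Finset V) × (V → Finset V)) : ℤ :=
  ∑ a, c A (p.1 a) + ∑ a, c A (p.2 a)

omit [Fintype V] in
lemma adj_anti {A : Finset (V × V)} (hor : ∀ u v, (u, v) ∈ A → (v, u) ∉ A) {a b : V}
    (h1 : adj A a b) (h2 : adj A b a) : a = b := by
  rcases h1 with h1 | h1
  · exact h1
  · rcases h2 with h2 | h2
    · exact h2.symm
    · exact absurd h2 (hor _ _ h1)

lemma exists_outer (A : Finset (V × V)) (hor : ∀ u v, (u, v) ∈ A → (v, u) ∉ A) :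
    ∃ p, Feas A p ∧ ∀ q, Feas A q → cost A p ≤ cost A q := by
  obtain ⟨p, hp, hpm⟩ := exists_min_image
    (univ.filter (fun p : (V → Finset V) × (V → Finset V) => Feas A p)) (cost A)
    ⟨(fun a => cl A {a}, fun a => cl A {a}), by
      refine mem_filter.2 ⟨mem_univ _, ?_, ?_, ?_⟩
      · intro a z h; exact mem_cl.2 ⟨a, mem_singleton_self a, h⟩
      · intro a z h; exact mem_cl.2 ⟨a, mem_singleton_self a, h⟩
      · intro a b h1 h2
        obtain ⟨x, hx, hxb⟩ := mem_cl.1 h1
        obtain ⟨y, hy, hya⟩ := mem_cl.1 h2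
        rw [mem_singleton] at hx hy
        subst hx; subst hy
        exact adj_anti hor hxb hya⟩
  exact ⟨p, (mem_filter.1 hp).2, fun q hq => hpm q (mem_filter.2 ⟨mem_univ _, hq⟩)⟩

lemma sum_update (f : Finset V → ℤ) (B : V → Finset V) (a : V) (Y : Finset V) :
    ∑ x, f (Function.update B a Y x) = ∑ x, f (B x) + (f Y - f (B a)) := by
  have h1 : (fun x => f (Function.update B a Y x)) = Function.update (fun x => f (B x)) a (f Y) := by
    funext x
    by_cases h : x = a
    · subst h; simp
    · simp [h]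
  have h2 : ∑ x, f (Function.update B a Y x) = ∑ x, Function.update (fun x => f (B x)) a (f Y) x := by
    rw [← h1]
  have h3 := add_sum_erase univ (fun x => f (B x)) (mem_univ a)
  rw [h2, sum_update_of_mem (mem_univ a), sdiff_singleton_eq_erase, ← h3]
  ring

/-- the erosion: intersection over the closed in-neighbourhood -/
noncomputable def ero (A : Finset (V × V)) (B : V → Finset V) (z : V) : Finset V :=
  univ.filter (fun x => ∀ a, adj A a z → x ∈ B a)

lemma mem_ero {A : Finset (V × V)} {B : V → Finset V} {z x : V} :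
    x ∈ ero A B z ↔ ∀ a, adj A a z → x ∈ B a := by simp [ero]

lemma feas_ero {A : Finset (V × V)} {p : (V → Finset V) × (V → Finset V)} (hp : Feas A p) :
    Feas A (fun a => cl A (ero A p.1 a), fun a => cl A (ero A p.2 a)) := by
  obtain ⟨h1, h2, h3⟩ := hp
  have e1 : ∀ a, a ∈ ero A p.1 a := fun a => mem_ero.2 fun s hs => h1 s a hs
  have e2 : ∀ a, a ∈ ero A p.2 a := fun a => mem_ero.2 fun s hs => h2 s a hs
  refine ⟨fun a z h => mem_cl.2 ⟨a, e1 a, h⟩, fun a z h => mem_cl.2 ⟨a, e2 a, h⟩, ?_⟩
  intro a b hb ha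
  obtain ⟨x, hx, hxb⟩ := mem_cl.1 hb
  obtain ⟨y, hy, hya⟩ := mem_cl.1 ha
  have h4 : x ∈ p.1 y := mem_ero.1 hx y hya
  have h5 : y ∈ p.2 x := mem_ero.1 hy x hxb
  have h6 : y = x := h3 y x h4 h5
  subst h6
  have h7 : a = y := h3 a y (mem_ero.1 hx a (Or.inl rfl)) (h2 y a hya)
  have h8 : y = b := h3 y b (h1 y b hxb) (mem_ero.1 hy b (Or.inl rfl))
  exact h7.trans h8

/-- upper family -/
noncomputable def up (C : V → Finset V) (a : V) : Finset V :=
  univ.filter (fun b => a = b ∨ a ∉ C b)

lemma mem_up {C : V → Finset V} {a b : V} : b ∈ up C a ↔ a = b ∨ a ∉ C b := by simp [up]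

lemma sum_card_eq (X : V → Finset V) :
    ∑ a, ((X a).card : ℤ) = ∑ b, ((univ.filter (fun a => b ∈ X a)).card : ℤ) := by
  have h1 : ∀ a, ((X a).card : ℤ) = ∑ b, if b ∈ X a then (1 : ℤ) else 0 := by
    intro a
    rw [← sum_filter, sum_const, nsmul_eq_mul, mul_one]
    congr 2
    ext b; simp
  have h2 : ∀ b, ((univ.filter (fun a => b ∈ X a)).card : ℤ) = ∑ a, if b ∈ X a then (1 : ℤ) else 0 := by
    intro b
    rw [← sum_filter, sum_const, nsmul_eq_mul, mul_one]
  rw [sum_congr rfl (fun a _ => h1 a), sum_congr rfl (fun b _ => h2 b), sum_comm]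

lemma cost_ero_le {A : Finset (V × V)} {B C : V → Finset V} (hp : Feas A (B, C))
    (hmin : ∀ q, Feas A q → cost A (B, C) ≤ cost A q) :
    cost A (ero A B, ero A C) ≤ cost A (B, C) := by
  obtain ⟨h1, h2, h3⟩ := hp
  simp only at h1 h2 h3
  have hBU : ∀ a, B a ⊆ up C a := by
    intro a b hb
    rw [mem_up]
    by_cases h : a ∈ C b
    · exact Or.inl (h3 a b hb h)
    · exact Or.inr h
  have hrow : ∀ a Y, B a ⊆ Y → Y ⊆ up C a → c A (B a) ≤ c A Y := by
    intro a Y hY1 hY2
    have hf : Feas A (Function.update B a Y, C) := by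
      refine ⟨?_, h2, ?_⟩
      · intro a' z h
        by_cases h' : a' = a
        · subst h'; simpa using hY1 (h1 _ _ h)
        · simpa [h'] using h1 _ _ h
      · intro a' b hb hc
        by_cases h' : a' = a
        · subst h'
          simp only [Function.update_self] at hb
          rcases mem_up.1 (hY2 hb) with h | h
          · exact h
          · exact absurd hc h
        · simp only [Function.update_of_ne h'] at hb
          exact h3 _ _ hb hc
    have h4 := hmin _ hf
    unfold cost at h4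
    simp only at h4
    rw [sum_update] at h4
    linarith
  have hcol : ∀ b (S : Finset V), (∀ a ∈ S, b ∈ up C a ∧ b ∉ B a) →
      S.card ≤ (univ.filter (fun z => b ∈ ero A (up C) z ∧ ∃ a ∈ S, adj A a z)).card := by
    intro b S hS
    have hSC : Disjoint (C b) S := by
      rw [disjoint_left]
      intro a ha haS
      obtain ⟨h4, h5⟩ := hS a haS
      rcases mem_up.1 h4 with h6 | h6
      · subst h6; exact h5 (h1 _ _ (Or.inl rfl))
      · exact h6 ha
    have hf : Feas A (B, Function.update C b (C b ∪ S)) := by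
      refine ⟨h1, ?_, ?_⟩
      · intro a' z h
        by_cases h' : a' = b
        · subst h'; simpa using Or.inl (h2 _ _ h)
        · simpa [h'] using h2 _ _ h
      · intro a b' hb hc
        by_cases h' : b' = b
        · subst h'
          simp only [Function.update_self, mem_union] at hc
          rcases hc with hc | hc
          · exact h3 _ _ hb hc
          · exact absurd hb (hS a hc).2
        · simp only [Function.update_of_ne h'] at hc
          exact h3 _ _ hb hc
    have h4 := hmin _ hf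
    unfold cost at h4
    simp only at h4
    rw [sum_update] at h4
    unfold c at h4
    have h5 : ((C b ∪ S).card : ℤ) = (C b).card + S.card := by
      exact_mod_cast card_union_of_disjoint hSC
    have h6 : ((cl A (C b ∪ S)).card : ℤ) = (cl A (C b)).card + (cl A S \ cl A (C b)).card := by
      rw [cl_union, ← union_sdiff_self_eq_union]
      exact_mod_cast card_union_of_disjoint disjoint_sdiff
    have h7 : (cl A S \ cl A (C b)).card
        ≤ (univ.filter (fun z => b ∈ ero A (up C) z ∧ ∃ a ∈ S, adj A a z)).card := by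
      refine card_le_card fun z hz => ?_
      obtain ⟨h8, h9⟩ := mem_sdiff.1 hz
      refine mem_filter.2 ⟨mem_univ _, mem_ero.2 fun a ha => mem_up.2 (Or.inr fun hc => ?_),
        mem_cl.1 h8⟩
      exact h9 (mem_cl.2 ⟨a, hc, ha⟩)
    have h7' : ((cl A S \ cl A (C b)).card : ℤ)
        ≤ (univ.filter (fun z => b ∈ ero A (up C) z ∧ ∃ a ∈ S, adj A a z)).card := by
      exact_mod_cast h7
    have h8 : (S.card : ℤ)
        ≤ (univ.filter (fun z => b ∈ ero A (up C) z ∧ ∃ a ∈ S, adj A a z)).card := by
      linarith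
    exact_mod_cast h8
  have hgap := gap (adj A) (c A) (c_sub A) B (up C) (ero A B) (ero A (up C)) hBU
    (fun z x => mem_ero) (fun z x => mem_ero) hrow hcol
  -- the cost of C
  have hC : ∀ b, c A (C b) = ((univ.filter (fun a => b ∈ up C a)).card : ℤ)
      - (univ.filter (fun z => b ∈ ero A (up C) z)).card := by
    intro b
    have e1 : univ.filter (fun a => b ∈ up C a) = (C b)ᶜ ∪ {b} := by
      ext a
      simp only [mem_filter, mem_univ, true_and, mem_up, mem_union, mem_compl, mem_singleton]
      tauto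
    have e2 : univ.filter (fun z => b ∈ ero A (up C) z) = (cl A (C b))ᶜ ∪ {b} := by
      ext z
      simp only [mem_filter, mem_univ, true_and, mem_union, mem_compl, mem_singleton]
      constructor
      · intro hz
        by_cases hzc : z ∈ cl A (C b)
        · right
          obtain ⟨a, haC, haz⟩ := mem_cl.1 hzc
          rcases mem_up.1 (mem_ero.1 hz a haz) with h4 | h4
          · subst h4
            rcases mem_up.1 (mem_ero.1 hz z (Or.inl rfl)) with h5 | h5
            · exact h5
            · exact absurd (h2 _ _ haz) h5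
          · exact absurd haC h4
        · exact Or.inl hzc
      · rintro (hz | hz)
        · refine mem_ero.2 fun a ha => mem_up.2 (Or.inr fun hc => hz (mem_cl.2 ⟨a, hc, ha⟩))
        · subst hz
          refine mem_ero.2 fun a ha => mem_up.2 ?_
          by_cases hc : a ∈ C z
          · exact Or.inl (h3 a z (h1 _ _ ha) hc)
          · exact Or.inr hc
    have hbb : b ∈ C b := h2 _ _ (Or.inl rfl)
    have e3 : (univ.filter (fun a => b ∈ up C a)).card + (C b).card = Fintype.card V + 1 := by
      rw [e1, card_union_of_disjoint (by simpa using hbb), card_singleton]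
      have := card_compl_add_card (C b)
      omega
    have e4 : (univ.filter (fun z => b ∈ ero A (up C) z)).card + (cl A (C b)).card
        = Fintype.card V + 1 := by
      rw [e2, card_union_of_disjoint (by simpa using sub_cl A _ hbb), card_singleton]
      have := card_compl_add_card (cl A (C b))
      omega
    unfold c
    omega
  -- the cost of the erosion of C
  have hCo : ∀ x, c A (ero A C x) ≤ ((univ.filter (fun z => x ∈ cl A (up C z))).card : ℤ)
      - (univ.filter (fun t => x ∈ cl A (ero A (up C) t))).card := by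
    intro x
    have hxx : x ∈ ero A C x := mem_ero.2 fun s hs => h2 s x hs
    have e1 : ∀ z, z ∈ ero A C x → z = x ∨ x ∉ cl A (up C z) := by
      intro z hz
      by_contra hcon
      push Not at hcon
      obtain ⟨hzx, hxc⟩ := hcon
      obtain ⟨s, hs, hsx⟩ := mem_cl.1 hxc
      rcases mem_up.1 hs with h4 | h4
      · subst h4
        exact hzx (h3 z x (h1 _ _ hsx) (mem_ero.1 hz x (Or.inl rfl)))
      · exact h4 (mem_ero.1 hz s hsx)
    have e2 : (univ.filter (fun z => x ∈ cl A (up C z)))ᶜ ∪ {x} ⊆ ero A C x := by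
      intro z hz
      rcases mem_union.1 hz with hz | hz
      · rw [mem_compl, mem_filter] at hz
        push Not at hz
        have hz' := hz (mem_univ _)
        refine mem_ero.2 fun s hs => ?_
        by_contra h4
        exact hz' (mem_cl.2 ⟨s, mem_up.2 (Or.inr h4), hs⟩)
      · rw [mem_singleton] at hz
        exact hz ▸ hxx
    have hxU : x ∈ univ.filter (fun z => x ∈ cl A (up C z)) :=
      mem_filter.2 ⟨mem_univ _, sub_cl A _ (mem_up.2 (Or.inl rfl))⟩
    have e3 : Fintype.card V + 1 ≤ (ero A C x).card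
        + (univ.filter (fun z => x ∈ cl A (up C z))).card := by
      have h4 := card_le_card e2
      rw [card_union_of_disjoint (by simpa using hxU), card_singleton] at h4
      have := card_compl_add_card (univ.filter (fun z => x ∈ cl A (up C z)))
      omega
    have e4 : univ.filter (fun t => x ∈ cl A (ero A (up C) t)) ⊆ (cl A (ero A C x))ᶜ ∪ {x} := by
      intro t ht
      rw [mem_filter] at ht
      by_contra hcon
      simp only [mem_union, mem_compl, mem_singleton, not_or, not_not] at hcon
      obtain ⟨htc, htx⟩ := hcon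
      obtain ⟨y, hy, hyx⟩ := mem_cl.1 ht.2
      obtain ⟨z, hz, hzt⟩ := mem_cl.1 htc
      rcases e1 z hz with h4 | h4
      · subst h4
        rcases mem_up.1 (mem_ero.1 hy z hzt) with h5 | h5
        · subst h5
          rcases mem_up.1 (mem_ero.1 hy t (Or.inl rfl)) with h6 | h6
          · exact htx h6
          · exact h6 (h2 _ _ hzt)
        · exact h5 (h2 _ _ hyx)
      · exact h4 (mem_cl.2 ⟨y, mem_ero.1 hy z hzt, hyx⟩)
    have e5 : (univ.filter (fun t => x ∈ cl A (ero A (up C) t))).card + (cl A (ero A C x)).card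
        ≤ Fintype.card V + 1 := by
      have h4 := card_le_card e4
      have h5 := card_union_le (cl A (ero A C x))ᶜ {x}
      rw [card_singleton] at h5
      have := card_compl_add_card (cl A (ero A C x))
      omega
    unfold c
    omega
  have s1 : ∑ b, c A (C b) = ∑ a, ((up C a).card : ℤ) - ∑ z, ((ero A (up C) z).card : ℤ) := by
    rw [sum_congr rfl (fun b _ => hC b), sum_sub_distrib, sum_card_eq (up C),
      sum_card_eq (ero A (up C))]
  have s2 : ∑ b, c A (ero A C b) ≤ ∑ a, ((cl A (up C a)).card : ℤ)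
      - ∑ z, ((cl A (ero A (up C) z)).card : ℤ) := by
    rw [sum_card_eq (fun a => cl A (up C a)), sum_card_eq (fun z => cl A (ero A (up C) z)),
      ← sum_sub_distrib]
    exact sum_le_sum (fun x _ => hCo x)
  unfold cost
  simp only
  rw [s1]
  have s3 : ∑ a, (c A (up C a) - c A (B a)) = ∑ a, ((cl A (up C a)).card : ℤ)
      - ∑ a, ((up C a).card : ℤ) - ∑ a, c A (B a) := by
    rw [← sum_sub_distrib, ← sum_sub_distrib]
    rfl
  have s4 : ∑ z, (c A (ero A (up C) z) - c A (ero A B z)) = ∑ z, ((cl A (ero A (up C) z)).card : ℤ)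
      - ∑ z, ((ero A (up C) z).card : ℤ) - ∑ z, c A (ero A B z) := by
    rw [← sum_sub_distrib, ← sum_sub_distrib]
    rfl
  rw [s3, s4] at hgap
  linarith

lemma no_min_ce [Nonempty V] (A : Finset (V × V)) (hor : ∀ u v, (u, v) ∈ A → (v, u) ∉ A)
    (hCE : ∀ v, 0 < F A v) (hmin : ∀ A', A' ⊂ A → ¬ ∀ v, 0 < F A' v) : False := by
  obtain ⟨⟨B, C⟩, hp, hpm⟩ := exists_outer A hor
  have hcost := cost_ero_le hp hpm
  have hfe := feas_ero hp
  have hle := hpm _ hfe
  have hG : ∀ S : Finset V, c A (cl A S) ≤ c A S := by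
    intro S
    by_cases h : cl A S = S
    · rw [h]
    · exact (strictG A hCE hmin S h).le
  -- some row is not closed
  obtain ⟨a, ha⟩ : ∃ a, cl A (ero A B a) ≠ ero A B a := by
    by_contra hcon
    push Not at hcon
    obtain ⟨K, hK, hKm⟩ := exists_min_image
      (univ.filter (fun S : Finset V => S.Nonempty ∧ cl A S = S)) card
      ⟨univ, mem_filter.2 ⟨mem_univ _, univ_nonempty,
        subset_antisymm (subset_univ _) (sub_cl A _)⟩⟩
    obtain ⟨_, ⟨b, hb⟩, hKc⟩ := mem_filter.1 hK
    have hKsub : ∀ b ∈ K, K ⊆ ero A B b := by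
      intro b hb
      have hbb : b ∈ ero A B b := mem_ero.2 fun s hs => hp.1 s b hs
      have h4 : K.card ≤ (ero A B b ∩ K).card := by
        refine hKm _ (mem_filter.2 ⟨mem_univ _, ⟨b, mem_inter.2 ⟨hbb, hb⟩⟩, ?_⟩)
        refine subset_antisymm (subset_inter ?_ ?_) (sub_cl A _)
        · exact (cl_mono inter_subset_left).trans (hcon b).subset
        · exact (cl_mono inter_subset_right).trans hKc.subset
      have h5 : ero A B b ∩ K = K := eq_of_subset_of_card_le inter_subset_right h4
      rw [← h5]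
      exact inter_subset_left
    obtain ⟨b', hbb', hne⟩ : ∃ b', adj A b b' ∧ b ≠ b' := by
      by_contra h4
      push Not at h4
      have h5 : cl A {b} = {b} := by
        refine subset_antisymm (fun x hx => ?_) (sub_cl A _)
        obtain ⟨y, hy, hyx⟩ := mem_cl.1 hx
        rw [mem_singleton] at hy
        subst hy
        rw [mem_singleton]
        exact (h4 x hyx).symm
      have h6 := hCE b
      unfold F at h6
      rw [h5, h5, card_singleton] at h6
      norm_num at h6
    have hb' : b' ∈ K := hKc ▸ mem_cl.2 ⟨b, hb, hbb'⟩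
    have h6 : b ∈ cl A (ero A B b') := sub_cl A _ (hKsub b' hb' hb)
    have h7 : b' ∈ cl A (ero A C b) := mem_cl.2 ⟨b, mem_ero.2 fun s hs => hp.2.1 s b hs, hbb'⟩
    exact hne (hfe.2.2 b' b h6 h7).symm
  have hlt : cost A (fun a => cl A (ero A B a), fun a => cl A (ero A C a))
      < cost A (ero A B, ero A C) := by
    unfold cost
    simp only
    refine add_lt_add_of_lt_of_le ?_ (sum_le_sum fun x _ => hG _)
    exact sum_lt_sum (fun x _ => hG _) ⟨a, mem_univ _, strictG A hCE hmin _ ha⟩
  linarith

/-- **Seymour's second neighbourhood conjecture**, in terms of closed out-neighbourhoods. -/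
theorem snc_cl [Nonempty V] (A : Finset (V × V)) (hor : ∀ u v, (u, v) ∈ A → (v, u) ∉ A) :
    ∃ v, F A v ≤ 0 := by
  by_contra hcon
  push Not at hcon
  obtain ⟨A0, hA0, hA0m⟩ := exists_min_image
    (A.powerset.filter (fun A' => ∀ v, 0 < F A' v)) card
    ⟨A, mem_filter.2 ⟨mem_powerset_self A, hcon⟩⟩
  obtain ⟨hsub, hCE⟩ := mem_filter.1 hA0
  rw [mem_powerset] at hsub
  refine no_min_ce A0 (fun u v h h' => hor u v (hsub h) (hsub h')) hCE fun A' hA' hCE' => ?_
  have h1 := hA0m A' (mem_filter.2 ⟨mem_powerset.2 (hA'.1.trans hsub), hCE'⟩)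
  exact absurd (card_lt_card hA') (not_lt.2 h1)

end Vale.Agent.P038.H122
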